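import Mathlib

/-!
# P024, block [W3]: sizes of algebraic integers divisible by a power of `p`, and of determinants
-/

namespace Vale.Agent.P024.M3.H832

open NumberField

/-- A nonzero algebraic integer has a conjugate of absolute value at least one. -/
theorem exists_one_le {N : Type*} [Field N] [NumberField N] (δ : 𝓞 N) (hδ : δ ≠ 0) :
    ∃ φ : N →+* ℂ, 1 ≤ ‖φ (δ : N)‖ := by
  by_contra hcon
  push Not at hcon
  have hprod : ∏ φ : N →+* ℂ, ‖φ (δ : N)‖ < 1 := by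
    have hne : (Finset.univ : Finset (N →+* ℂ)).Nonempty := Finset.univ_nonempty
    calc ∏ φ : N →+* ℂ, ‖φ (δ : N)‖ < ∏ _φ : N →+* ℂ, (1 : ℝ) :=
          Finset.prod_lt_prod_of_nonempty (fun φ _ => norm_pos_iff.2 (by
            rw [Ne, map_eq_zero]
            exact fun h => hδ (by exact_mod_cast h))) (fun φ _ => hcon φ) hne
      _ = 1 := by simp
  have hnorm : (1 : ℝ) ≤ |((Algebra.norm ℤ δ : ℤ) : ℝ)| := by
    have h0 : Algebra.norm ℤ δ ≠ 0 := Algebra.norm_ne_zero_iff.2 hδ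
    exact_mod_cast Int.one_le_abs h0
  have heq : ∏ φ : N →+* ℂ, ‖φ (δ : N)‖ = |((Algebra.norm ℤ δ : ℤ) : ℝ)| := by
    have h1 := Algebra.norm_eq_prod_embeddings ℚ ℂ (δ : N)
    have h2 : (Algebra.norm ℚ (δ : N) : ℚ) = ((Algebra.norm ℤ δ : ℤ) : ℚ) :=
      (Algebra.coe_norm_int δ).symm
    rw [h2] at h1
    have h3 : (algebraMap ℚ ℂ) ((Algebra.norm ℤ δ : ℤ) : ℚ) = ((Algebra.norm ℤ δ : ℤ) : ℂ) := by
      simp
    rw [h3] at h1
    have h4 : ‖((Algebra.norm ℤ δ : ℤ) : ℂ)‖ = |((Algebra.norm ℤ δ : ℤ) : ℝ)| := by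
      rw [← Complex.ofReal_intCast, Complex.norm_real, Real.norm_eq_abs]
    rw [← h4, h1, norm_prod]
    refine (Fintype.prod_equiv (RingHom.equivRatAlgHom N ℂ) _ _ fun φ => ?_)
    rfl
  linarith

/-- **Size estimate.** -/
theorem size {N : Type*} [Field N] [NumberField N] (Δ δ : 𝓞 N) (p m : ℕ)
    (h : Δ = (p : 𝓞 N) ^ m * δ) (hδ : δ ≠ 0) (B : ℝ) (hB : ∀ φ : N →+* ℂ, ‖φ (Δ : N)‖ ≤ B) :
    (p : ℝ) ^ m ≤ B := by
  obtain ⟨φ, hφ⟩ := exists_one_le δ hδ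
  refine le_trans ?_ (hB φ)
  have h1 : (Δ : N) = (p : N) ^ m * (δ : N) := by rw [h]; push_cast; ring
  rw [h1, map_mul, map_pow, map_natCast, norm_mul, norm_pow, Complex.norm_natCast]
  exact le_mul_of_one_le_right (by positivity) hφ

/-- **Determinants.** -/
theorem norm_det_le {N : Type*} [Field N] [NumberField N] {ι : Type*} [Fintype ι] [DecidableEq ι]
    (M : Matrix ι ι (𝓞 N)) (φ : N →+* ℂ) (c : ι → ℝ)
    (hc : ∀ i j, ‖φ ((M i j : 𝓞 N) : N)‖ ≤ c j) :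
    ‖φ ((M.det : 𝓞 N) : N)‖ ≤ (Fintype.card ι).factorial * ∏ j, c j := by
  rw [Matrix.det_apply']
  push_cast
  rw [map_sum]
  refine (norm_sum_le _ _).trans ?_
  have : ∀ σ ∈ (Finset.univ : Finset (Equiv.Perm ι)),
      ‖φ (((Equiv.Perm.sign σ : ℤ) : N) * ∏ i, ((M (σ i) i : 𝓞 N) : N))‖ ≤ ∏ j, c j := by
    intro σ _
    rw [map_mul, norm_mul, map_prod, norm_prod, map_intCast]
    have h1 : ‖(((Equiv.Perm.sign σ : ℤ)) : ℂ)‖ = 1 := by
      rcases Int.units_eq_one_or (Equiv.Perm.sign σ) with h | h <;> simp [h]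
    rw [h1, one_mul]
    exact Finset.prod_le_prod (fun i _ => norm_nonneg _) fun i _ => hc (σ i) i
  refine (Finset.sum_le_card_nsmul _ _ _ this).trans ?_
  rw [Finset.card_univ, Fintype.card_perm, nsmul_eq_mul]

/-- Both together: a determinant divisible by `p ^ m` with small entries vanishes. -/
theorem det_eq_zero {N : Type*} [Field N] [NumberField N] {L : ℕ} (M : Matrix (Fin L) (Fin L) (𝓞 N))
    (p m : ℕ) (c : ℝ) (hdvd : (p : 𝓞 N) ^ m ∣ M.det)
    (hc : ∀ (φ : N →+* ℂ) i j, ‖φ ((M i j : 𝓞 N) : N)‖ ≤ c)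
    (hlt : (L.factorial : ℝ) * c ^ L < (p : ℝ) ^ m) : M.det = 0 := by
  obtain ⟨δ, hδ⟩ := hdvd
  by_contra h0
  have hδ0 : δ ≠ 0 := by
    rintro rfl
    exact h0 (by rw [hδ, mul_zero])
  have := size M.det δ p m hδ hδ0 ((L.factorial : ℝ) * c ^ L) fun φ => by
    have := norm_det_le M φ (fun _ => c) (fun i j => hc φ i j)
    simpa using this
  linarith

end Vale.Agent.P024.M3.H832
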